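import Vale.Agent.P211.H56.Calc

set_option linter.all false

/-! P211, block L-POIN (abstract half): the Poincaré inequality with the Lichnerowicz constant from
the solvability of `l h - Δh = F`. -/

namespace Vale.Agent.P211.H958

open Topology Filter MeasureTheory Set
open Vale.Agent.P211 Vale.Agent.P211.S4 Vale.Agent.P211.H56

variable {M 𝒪 V : Type*} [TopologicalSpace M] [CommRing 𝒪] [Algebra ℝ 𝒪]
    [AddCommGroup V] [Module 𝒪 V] {G : Geo2 M 𝒪 V}

/-- symmetry of the Hessian -/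
theorem hess_symm (f : 𝒪) (X Y : V) :
    G.g (G.nab X (G.grad f)) Y = G.g (G.nab Y (G.grad f)) X := by
  have h1 := G.metric X (G.grad f) Y
  have h2 := G.metric Y (G.grad f) X
  have h3 := G.comm X Y f
  rw [D_sub_left] at h3
  rw [G.grad_spec, G.grad_spec] at h1 h2
  linear_combination -h1 + h2 - h3

theorem nab_zero_at {p : M} {F : Fin 4 → V} (hF : G.Sync p F) (X Y : V) (i : Fin 4) :
    G.ev p (G.g Y (G.nab X (F i))) = 0 := by
  have h3 := G.ptwise p ⟨⟨fun Z => G.g Z Y, fun a b => G.g_add_left a b _⟩,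
    fun a b => G.g_smul_left a b _⟩ (G.nab X (F i)) (hF.nab X i)
  rw [G.g_symm]; exact h3

/-- **Bochner formula** for a function on an Einstein manifold. -/
theorem bochner {lam : ℝ} (hE : G.Einstein lam) (h : 𝒪) {p : M} {F : Fin 4 → V}
    (hF : G.Sync p F) :
    G.ev p (G.lap (G.g (G.grad h) (G.grad h))) =
      2 * (∑ i, G.ev p (G.g (G.nab (F i) (G.grad h)) (G.nab (F i) (G.grad h)))
        + G.ev p (G.D (G.grad h) (G.lap h)) + lam * G.ev p (G.g (G.grad h) (G.grad h))) := by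
  obtain ⟨N, hN⟩ : ∃ N, N = G.grad h := ⟨_, rfl⟩
  have hs : ∀ X Y, G.g (G.nab X N) Y = G.g (G.nab Y N) X := fun X Y => by
    rw [hN]; exact hess_symm h X Y
  rw [← hN]
  -- the Laplacian near `p`
  have e0 : G.ev p (G.D N (G.lap h)) = G.ev p (G.D N (∑ i, G.g (G.nab (F i) N) (F i))) := by
    apply G.D_local
    filter_upwards [hF.on] with y hy
    rw [Geo2.lap, G.dv_spec _ y F hy, map_sum, hN]
  have e1 : ∀ i, G.ev p (G.D N (G.g (G.nab (F i) N) (F i))) =
      (1 / 2) * G.ev p (G.D (F i) (G.D (F i) (G.g N N)))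
      - G.ev p (G.g (G.nab (F i) N) (G.nab (F i) N)) - G.ev p (G.Rm (F i) N N (F i)) := by
    intro i
    have a1 : G.D N (G.g (G.nab (F i) N) (F i)) = G.g (G.nab N (G.nab (F i) N)) (F i)
      + G.g (G.nab (F i) N) (G.nab N (F i)) := G.metric _ _ _
    have a2 : G.ev p (G.g (G.nab (F i) N) (G.nab N (F i))) = 0 := nab_zero_at hF _ _ _
    have a3 : G.R (F i) N N = G.nab (F i) (G.nab N N) - G.nab N (G.nab (F i) N)
      - G.nab (G.brk (F i) N) N := rfl
    have a4 : G.Rm (F i) N N (F i) = G.g (G.nab (F i) (G.nab N N)) (F i)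
      - G.g (G.nab N (G.nab (F i) N)) (F i) - G.g (G.nab (G.brk (F i) N) N) (F i) := by
      rw [LC.Rm, a3, G.g_sub_left, G.g_sub_left]
    have a5 : G.nab (G.brk (F i) N) N = G.nab (G.nab (F i) N) N - G.nab (G.nab N (F i)) N := by
      rw [LC.brk, G.nab_sub_left]
    have a6 : G.g (G.nab (G.nab (F i) N) N) (F i) = G.g (G.nab (F i) N) (G.nab (F i) N) :=
      hs _ _
    have a7 : G.g (G.nab (G.nab N (F i)) N) (F i) = G.g (G.nab (F i) N) (G.nab N (F i)) := hs _ _
    have a8 : G.D (F i) (G.g N N) = G.g (G.nab N N) (F i) + G.g (G.nab N N) (F i) := by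
      rw [G.metric, G.g_symm N (G.nab (F i) N), hs (F i) N]
    have a9 : G.D (F i) (G.g (G.nab N N) (F i)) = G.g (G.nab (F i) (G.nab N N)) (F i)
      + G.g (G.nab N N) (G.nab (F i) (F i)) := G.metric _ _ _
    have a10 : G.ev p (G.g (G.nab N N) (G.nab (F i) (F i))) = 0 := nab_zero_at hF _ _ _
    rw [a8, G.D_add, a9, a1, a4, a5, g_sub_left, a6, a7]
    simp only [map_add, map_sub, a2, a10]
    ring
  have e2 := hE p F hF.at N N
  have e3 : G.D N (∑ i, G.g (G.nab (F i) N) (F i)) = ∑ i, G.D N (G.g (G.nab (F i) N) (F i)) := by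
    simp only [Fin.sum_univ_four, G.D_add]
  rw [lap_sync _ hF, e0, e3, map_sum]
  simp only [e1, Finset.sum_sub_distrib, ← Finset.mul_sum]
  rw [e2]
  ring

theorem sq_sum_le_card_mul_sum_sq' (a : Fin 4 → ℝ) : (∑ i, a i) ^ 2 ≤ 4 * ∑ i, a i ^ 2 := by
  simp only [Fin.sum_univ_four]
  nlinarith only [sq_nonneg (a 0 - a 1), sq_nonneg (a 0 - a 2), sq_nonneg (a 0 - a 3),
    sq_nonneg (a 1 - a 2), sq_nonneg (a 1 - a 3), sq_nonneg (a 2 - a 3)]

/-- `(Δh)² ≤ 4 |∇²h|²` -/
theorem lap_sq_le (h : 𝒪) {p : M} {F : Fin 4 → V} (hF : G.ON p F) :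
    G.ev p (G.lap h) ^ 2 ≤
      4 * ∑ i, G.ev p (G.g (G.nab (F i) (G.grad h)) (G.nab (F i) (G.grad h))) := by
  rw [Geo2.lap, G.dv_spec _ p F hF]
  have h1 : ∀ i, G.ev p (G.g (G.nab (F i) (G.grad h)) (F i)) ^ 2 ≤
      G.ev p (G.g (G.nab (F i) (G.grad h)) (G.nab (F i) (G.grad h))) := by
    intro i
    rw [G.parseval p F hF]
    exact Finset.single_le_sum (f := fun j => G.ev p (G.g (G.nab (F i) (G.grad h)) (F j)) ^ 2)
      (fun j _ => sq_nonneg _) (Finset.mem_univ i)
  have h2 := sq_sum_le_card_mul_sum_sq' (fun i => G.ev p (G.g (G.nab (F i) (G.grad h)) (F i)))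
  exact h2.trans (mul_le_mul_of_nonneg_left (Finset.sum_le_sum fun i _ => h1 i) (by norm_num))

theorem sync_frame (p : M) : ∃ F : Fin 4 → V, G.Sync p F := by
  obtain ⟨F₀, hF₀⟩ := G.frame p
  obtain ⟨F, h1, -, h3⟩ := G.sync p F₀ hF₀
  exact ⟨F, h1, h3⟩

theorem g_cs (X Y : V) (p : M) : G.ev p (G.g X Y) ^ 2 ≤ G.ev p (G.g X X) * G.ev p (G.g Y Y) := by
  obtain ⟨F, hF⟩ := G.frame p
  have h1 : G.ev p (G.g X Y) = ∑ i, G.ev p (G.g X (F i)) * G.ev p (G.g Y (F i)) := by
    have hexp := G.toGeom.expand (p := p) (F := F) hF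
      ⟨⟨fun Z => G.g Z Y, fun a b => G.g_add_left a b Y⟩, fun b Z => G.g_smul_left b Z Y⟩ X
    have hexp' : G.ev p (G.g X Y) =
      ∑ i, G.ev p (G.g X (F i)) * G.ev p (G.g (F i) Y) := hexp
    rw [hexp']
    refine Finset.sum_congr rfl fun i _ => ?_
    rw [G.g_symm Y]
  rw [h1, G.parseval p F hF, G.parseval p F hF]
  exact Finset.sum_mul_sq_le_sq_mul_sq _ _ _

/-- gradient bound by the maximum principle -/
theorem grad_bound [CompactSpace M] (hE : G.Einstein 3) {F h : 𝒪} {l : ℝ} (hl : 0 < l)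
    (hh : ∀ q, l * G.ev q h - G.ev q (G.lap h) = G.ev q F) {S : ℝ} (hS0 : 0 ≤ S)
    (hS : ∀ q, G.ev q (G.g (G.grad F) (G.grad F)) ≤ S ^ 2) (q : M) :
    G.ev q (G.g (G.grad h) (G.grad h)) ≤ S ^ 2 := by
  obtain ⟨p, -, hp⟩ := isCompact_univ.exists_isMaxOn ⟨q, mem_univ q⟩
    (G.ev_cont (G.g (G.grad h) (G.grad h))).continuousOn
  have hp' : ∀ y, G.ev y (G.g (G.grad h) (G.grad h)) ≤ G.ev p (G.g (G.grad h) (G.grad h)) :=
    fun y => hp (mem_univ y)
  refine (hp' q).trans ?_
  obtain ⟨E, hEs⟩ := sync_frame (G := G) p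
  have hb := bochner hE h hEs
  have hlap : G.ev p (G.lap (G.g (G.grad h) (G.grad h))) ≤ 0 := by
    have hm : IsLocalMin (fun q => G.ev q (- G.g (G.grad h) (G.grad h))) p := by
      refine Eventually.of_forall fun y => ?_
      simp only [map_neg]
      exact neg_le_neg (hp' y)
    have := lap_nonneg_of_min hm
    rw [lap_neg, map_neg] at this
    linarith
  have hD : G.ev p (G.D (G.grad h) (G.lap h)) =
      l * G.ev p (G.g (G.grad h) (G.grad h)) - G.ev p (G.g (G.grad h) (G.grad F)) := by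
    have h1 : G.lap h = l • h - F := G.ev_ext _ _ fun y => by
      have := hh y
      rw [map_sub, map_smul, smul_eq_mul]; linarith
    rw [h1, D_sub, D_smul_real, map_sub, map_smul, smul_eq_mul, ← G.grad_spec h (G.grad h),
      ← G.grad_spec F (G.grad h), G.g_symm (G.grad F)]
  rw [hD] at hb
  have hn : 0 ≤ ∑ i, G.ev p (G.g (G.nab (E i) (G.grad h)) (G.nab (E i) (G.grad h))) :=
    Finset.sum_nonneg fun i _ => G.g_nonneg _ _
  have hcs := g_cs (G := G) (G.grad h) (G.grad F) p
  have hSp := hS p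
  have hu0 := G.g_nonneg p (G.grad h)
  clear hp hp' hS hh
  generalize G.ev p (G.g (G.grad h) (G.grad h)) = u at *
  generalize G.ev p (G.g (G.grad h) (G.grad F)) = w at *
  have h2 : (l + 3) * u ≤ w := by linarith
  have h3 : w ^ 2 ≤ u * S ^ 2 := hcs.trans (mul_le_mul_of_nonneg_left hSp hu0)
  have h4 : u ≤ w := by nlinarith
  have h5 : u * u ≤ u * S ^ 2 := by nlinarith
  rcases hu0.eq_or_lt with h0 | h0
  · rw [← h0]; positivity
  · exact le_of_mul_le_mul_left h5 h0

section integral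

variable [MeasurableSpace M] [BorelSpace M] {μ : Measure M} [IsFiniteMeasure μ]

theorem integrable_ev [CompactSpace M] (f : 𝒪) : Integrable (fun q => G.ev q f) μ :=
  (G.ev_cont f).integrable_of_hasCompactSupport (HasCompactSupport.of_compactSpace _)

/-- the integral as a linear functional -/
noncomputable def II (G : Geo2 M 𝒪 V) (μ : Measure M) (f : 𝒪) : ℝ := ∫ q, G.ev q f ∂μ

theorem II_add [CompactSpace M] (f h : 𝒪) : II G μ (f + h) = II G μ f + II G μ h := by
  unfold II
  rw [← integral_add (integrable_ev _) (integrable_ev _)]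
  simp only [map_add]

theorem II_smul [CompactSpace M] (c : ℝ) (f : 𝒪) : II G μ (c • f) = c * II G μ f := by
  unfold II
  rw [← integral_const_mul]
  simp only [map_smul, smul_eq_mul]

theorem II_neg [CompactSpace M] (f : 𝒪) : II G μ (-f) = - II G μ f := by
  have := II_smul (G := G) (μ := μ) (-1) f
  simpa using this

theorem II_sub [CompactSpace M] (f h : 𝒪) : II G μ (f - h) = II G μ f - II G μ h := by
  rw [sub_eq_add_neg, II_add, II_neg]; ring

theorem II_mono [CompactSpace M] {f h : 𝒪} (H : ∀ q, G.ev q f ≤ G.ev q h) :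
    II G μ f ≤ II G μ h :=
  integral_mono (integrable_ev _) (integrable_ev _) H

theorem II_congr {f h : 𝒪} (H : ∀ q, G.ev q f = G.ev q h) : II G μ f = II G μ h := by
  unfold II; simp only [H]

theorem II_bound [CompactSpace M] {f : 𝒪} {C : ℝ} (H : ∀ q, |G.ev q f| ≤ C) :
    |II G μ f| ≤ C * μ.real univ := by
  have := norm_integral_le_of_norm_le_const (μ := μ) (f := fun q => G.ev q f) (C := C)
    (Eventually.of_forall H)
  exact this

theorem II_lap (hd : DivThm G μ) (h : 𝒪) : II G μ (G.lap h) = 0 := hd (G.grad h)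

/-- integration by parts -/
theorem II_lap_mul [CompactSpace M] (hd : DivThm G μ) (f h : 𝒪) :
    II G μ (f * G.lap h) = - II G μ (G.g (G.grad f) (G.grad h)) := by
  have h1 : II G μ (G.dv (f • G.grad h)) = 0 := hd (f • G.grad h)
  rw [dv_smul', II_add, ← G.grad_spec f (G.grad h)] at h1
  have h2 : II G μ (f * G.dv (G.grad h)) = II G μ (f * G.lap h) := rfl
  linarith

/-- integrated Bochner inequality: `4 ∫ |∇h|² ≤ ∫ (Δh)²` -/
theorem II_bochner [CompactSpace M] (hE : G.Einstein 3) (hd : DivThm G μ) (h : 𝒪) :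
    4 * II G μ (G.g (G.grad h) (G.grad h)) ≤ II G μ (G.lap h * G.lap h) := by
  have h1 := II_lap hd (G.g (G.grad h) (G.grad h))
  have h2 := II_lap_mul hd (G.lap h) h
  have h3 : ∀ q, G.ev q ((1 / 2 : ℝ) • (G.lap h * G.lap h)
      + (2 : ℝ) • G.g (G.grad (G.lap h)) (G.grad h) + (6 : ℝ) • G.g (G.grad h) (G.grad h)) ≤
      G.ev q (G.lap (G.g (G.grad h) (G.grad h))) := by
    intro q
    obtain ⟨E, hEs⟩ := sync_frame (G := G) q
    rw [bochner hE h hEs, ← G.grad_spec]
    have := lap_sq_le h hEs.at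
    simp only [map_add, map_smul, smul_eq_mul, map_mul]
    nlinarith
  have h4 := II_mono (μ := μ) h3
  rw [h1, II_add, II_add, II_smul, II_smul, II_smul] at h4
  linarith

/-- **Poincaré inequality with the Lichnerowicz constant** from the solvability of
`l h - Δh = F` and a bound of the oscillation by the gradient. -/
theorem poincare_of_solver [CompactSpace M] (hE : G.Einstein 3) (hd : DivThm G μ)
    (osc : ∃ C : ℝ, 0 ≤ C ∧ ∀ (f : 𝒪) (S : ℝ), 0 ≤ S →
      (∀ q, G.ev q (G.g (G.grad f) (G.grad f)) ≤ S ^ 2) → ∀ x y, |G.ev x f - G.ev y f| ≤ C * S)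
    (solve : ∀ (F : 𝒪) (l : ℝ), 0 < l → ∃ h : 𝒪, ∀ q, l * G.ev q h - G.ev q (G.lap h) = G.ev q F)
    (F : 𝒪) (hF : ∫ q, G.ev q F ∂μ = 0) :
    4 * ∫ q, G.ev q F ^ 2 ∂μ ≤ ∫ q, G.ev q (G.g (G.grad F) (G.grad F)) ∂μ := by
  have e1 : ∫ q, G.ev q F ^ 2 ∂μ = II G μ (F * F) := by
    unfold II; simp only [map_mul, sq]
  have e2 : ∫ q, G.ev q (G.g (G.grad F) (G.grad F)) ∂μ = II G μ (G.g (G.grad F) (G.grad F)) := rfl
  rw [e1, e2]
  rcases isEmpty_or_nonempty M with hM | ⟨⟨x₀⟩⟩
  · have z : ∀ f : 𝒪, II G μ f = 0 := fun f => by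
      unfold II; exact integral_of_isEmpty
    rw [z, z, mul_zero]
  obtain ⟨C, hC0, hC⟩ := osc
  obtain ⟨B, hB⟩ := isCompact_univ.exists_bound_of_continuousOn (G.ev_cont F).continuousOn
  obtain ⟨S2, hS2⟩ := isCompact_univ.exists_bound_of_continuousOn
    (G.ev_cont (G.g (G.grad F) (G.grad F))).continuousOn
  obtain ⟨S, hS0, hS⟩ : ∃ S : ℝ, 0 ≤ S ∧ ∀ q, G.ev q (G.g (G.grad F) (G.grad F)) ≤ S ^ 2 := by
    refine ⟨Real.sqrt (max S2 0), Real.sqrt_nonneg _, fun q => ?_⟩
    rw [Real.sq_sqrt (le_max_right _ _)]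
    exact ((le_abs_self _).trans (hS2 q (mem_univ q))).trans (le_max_left _ _)
  have hB0 : 0 ≤ B := (norm_nonneg _).trans (hB x₀ (mem_univ x₀))
  -- everything is bounded by a constant independent of `l`
  obtain ⟨K, hK0, hK⟩ : ∃ K : ℝ, 0 ≤ K ∧ ∀ l : ℝ, 0 < l → l ≤ 1 →
      4 * II G μ (F * F) ≤ II G μ (G.g (G.grad F) (G.grad F)) + l * K := by
    refine ⟨16 * (B * (C * S) * μ.real univ) + 4 * ((C * S) ^ 2 * μ.real univ), by positivity,
      fun l hl hl1 => ?_⟩
    obtain ⟨h, hh⟩ := solve F l hl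
    have hgb := grad_bound hE hl hh hS0 hS
    have hFe : F = l • h - G.lap h := G.ev_ext _ _ fun q => by
      rw [← hh q, map_sub, map_smul, smul_eq_mul]
    -- mean zero
    have hmean : II G μ h = 0 := by
      have h1 : II G μ (l • h - G.lap h) = 0 := by rw [← hFe]; exact hF
      rw [II_sub, II_smul, II_lap hd, sub_zero] at h1
      exact (mul_eq_zero.1 h1).resolve_left hl.ne'
    have hosc := hC h S hS0 hgb
    -- the bound
    have hbd : ∀ x, |G.ev x h| * μ.real univ ≤ C * S * μ.real univ := by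
      intro x
      have h1 := II_bound (G := G) (μ := μ) (f := h - algebraMap ℝ 𝒪 (G.ev x h)) (C := C * S)
        fun q => by
          rw [map_sub, AlgHom.commutes]; exact hosc q x
      have h2 : II G μ (algebraMap ℝ 𝒪 (G.ev x h)) = G.ev x h * μ.real univ := by
        unfold II
        simp only [AlgHom.commutes, Algebra.algebraMap_self, RingHom.id_apply]
        rw [integral_const, smul_eq_mul, mul_comm]
      rw [II_sub, hmean, h2, zero_sub, abs_neg, abs_mul, abs_of_nonneg measureReal_nonneg] at h1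
      exact h1
    have hbF : ∀ q, |G.ev q F| ≤ B := fun q => hB q (mem_univ q)
    -- integrals of `F h` and `h²`
    have hm0 : 0 ≤ μ.real univ := measureReal_nonneg
    rcases hm0.eq_or_lt with hz | hm
    · have z : ∀ f : 𝒪, II G μ f = 0 := fun f => by
        have : μ = 0 := by
          rw [← Measure.measure_univ_eq_zero]
          exact (measureReal_eq_zero_iff (measure_ne_top μ univ)).1 hz.symm
        unfold II; rw [this]; simp
      rw [z, z, ← hz]; simp
    have hbd' : ∀ x, |G.ev x h| ≤ C * S := fun x => le_of_mul_le_mul_right (hbd x) hm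
    have hFh : |II G μ (F * h)| ≤ B * (C * S) * μ.real univ := by
      apply II_bound
      intro q
      rw [map_mul, abs_mul]
      exact mul_le_mul (hbF q) (hbd' q) (abs_nonneg _) hB0
    have hhh : |II G μ (h * h)| ≤ (C * S) ^ 2 * μ.real univ := by
      apply II_bound
      intro q
      rw [map_mul, abs_mul, sq]
      exact mul_le_mul (hbd' q) (hbd' q) (abs_nonneg _) (by positivity)
    have i1 : II G μ (F * F) = l * II G μ (F * h) + II G μ (G.g (G.grad F) (G.grad h)) := by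
      have a1 : F * F = l • (F * h) - F * G.lap h := by
        conv_lhs => rw [show F * F = F * (l • h - G.lap h) by rw [← hFe]]
        rw [mul_sub, mul_smul_comm]
      rw [a1, II_sub, II_smul, II_lap_mul hd]; ring
    have i2 : II G μ (G.lap h * G.lap h) = II G μ (F * F) - 2 * l * II G μ (F * h)
        + l ^ 2 * II G μ (h * h) := by
      have a1 : G.lap h * G.lap h = F * F - (2 * l) • (F * h) + (l ^ 2) • (h * h) := by
        have a2 : G.lap h = l • h - F := by rw [hFe]; abel_nf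
        rw [a2]
        simp only [Algebra.smul_def, map_mul, map_pow, map_ofNat]
        ring
      rw [a1, II_add, II_sub, II_smul, II_smul]
    have i3 := II_bochner (μ := μ) hE hd h
    have i4 : II G μ (G.g (G.grad F) (G.grad h)) ≤
        (1 / 8) * II G μ (G.g (G.grad F) (G.grad F)) + 2 * II G μ (G.g (G.grad h) (G.grad h)) := by
      rw [← II_smul, ← II_smul, ← II_add]
      apply II_mono
      intro q
      have hcs := g_cs (G := G) (G.grad F) (G.grad h) q
      have g1 := G.g_nonneg q (G.grad F)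
      have g2 := G.g_nonneg q (G.grad h)
      simp only [map_add, map_smul, smul_eq_mul]
      nlinarith [sq_nonneg ((1 / 8) * G.ev q (G.g (G.grad F) (G.grad F))
        - 2 * G.ev q (G.g (G.grad h) (G.grad h))), abs_nonneg (G.ev q (G.g (G.grad F) (G.grad h)))]
    have hFh' := abs_le.1 hFh
    have hhh' := abs_le.1 hhh
    have j1 : l * II G μ (F * h) ≤ l * (B * (C * S) * μ.real univ) :=
      mul_le_mul_of_nonneg_left hFh'.2 hl.le
    have j2 : - (l * II G μ (F * h)) ≤ l * (B * (C * S) * μ.real univ) := by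
      have := mul_le_mul_of_nonneg_left hFh'.1 hl.le
      linarith
    have j3 : l ^ 2 * II G μ (h * h) ≤ l * ((C * S) ^ 2 * μ.real univ) := by
      have a1 : l ^ 2 * II G μ (h * h) ≤ l ^ 2 * ((C * S) ^ 2 * μ.real univ) :=
        mul_le_mul_of_nonneg_left hhh'.2 (by positivity)
      have a2 : l ^ 2 ≤ l := by nlinarith
      exact a1.trans (mul_le_mul_of_nonneg_right a2 (by positivity))
    nlinarith
  refine le_of_forall_pos_le_add fun ε hε => ?_
  have h1 := hK (min 1 (ε / (K + 1))) (by positivity) (min_le_left _ _)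
  refine h1.trans (add_le_add le_rfl ?_)
  calc min 1 (ε / (K + 1)) * K ≤ ε / (K + 1) * K := mul_le_mul_of_nonneg_right (min_le_right _ _) hK0
    _ ≤ ε := by
      rw [div_mul_eq_mul_div, div_le_iff₀ (by positivity)]
      nlinarith

end integral

end Vale.Agent.P211.H958
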