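import Vale.Agent.P211.Bdl.S1
import Vale.Agent.P211.H958.Poin0
import Mathlib.Topology.ContinuousMap.Weierstrass

set_option linter.all false

/-! P211, block L-POIN: extension of the Poincaré inequality to `C¹` functions of two elements of
`𝒪`. -/

namespace Vale.Agent.P211.H958

open Topology Filter MeasureTheory Set
open Vale.Agent.P211 Vale.Agent.P211.S4 Vale.Agent.P211.H56

variable {M 𝒪 V : Type*} [TopologicalSpace M] [CommRing 𝒪] [Algebra ℝ 𝒪]
    [AddCommGroup V] [Module 𝒪 V] {G : Geo2 M 𝒪 V}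

/-- polynomials have primitives -/
theorem exists_prim (q : Polynomial ℝ) (a c : ℝ) :
    ∃ p : Polynomial ℝ, Polynomial.derivative p = q ∧ p.eval a = c := by
  have h1 : ∃ p : Polynomial ℝ, Polynomial.derivative p = q := by
    induction q using Polynomial.induction_on' with
    | add p q hp hq =>
      obtain ⟨p', hp'⟩ := hp
      obtain ⟨q', hq'⟩ := hq
      exact ⟨p' + q', by rw [map_add, hp', hq']⟩
    | monomial n c =>
      refine ⟨Polynomial.monomial (n + 1) (c / (n + 1)), ?_⟩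
      rw [Polynomial.derivative_monomial]
      have : (n : ℝ) + 1 ≠ 0 := by positivity
      congr 1
      push_cast
      field_simp
  obtain ⟨p, hp⟩ := h1
  exact ⟨p + Polynomial.C (c - p.eval a), by rw [map_add, hp, Polynomial.derivative_C, add_zero],
    by simp⟩

/-- polynomial approximation in `C¹` on `[0, R]` -/
theorem exists_poly_C1 {γ γ' : ℝ → ℝ} {R : ℝ} (hR : 0 ≤ R)
    (hγ : ∀ s ∈ Icc 0 R, HasDerivWithinAt γ (γ' s) (Icc 0 R) s)
    (hc : ContinuousOn γ' (Icc 0 R)) {ε : ℝ} (hε : 0 < ε) :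
    ∃ p : Polynomial ℝ, (∀ s ∈ Icc 0 R, |p.eval s - γ s| ≤ ε * R) ∧
      ∀ s ∈ Icc 0 R, |(Polynomial.derivative p).eval s - γ' s| ≤ ε := by
  obtain ⟨q, hq⟩ := exists_polynomial_near_of_continuousOn 0 R γ' hc ε hε
  obtain ⟨p, hp1, hp2⟩ := exists_prim q 0 (γ 0)
  have h2 : ∀ s ∈ Icc 0 R, |(Polynomial.derivative p).eval s - γ' s| ≤ ε := fun s hs => by
    rw [hp1]; exact (hq s hs).le
  refine ⟨p, fun s hs => ?_, h2⟩
  have h3 := (convex_Icc (0 : ℝ) R).norm_image_sub_le_of_norm_hasDerivWithin_le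
    (f := fun s => p.eval s - γ s) (f' := fun s => (Polynomial.derivative p).eval s - γ' s)
    (C := ε) (fun x hx => (p.hasDerivAt x).hasDerivWithinAt.sub (hγ x hx))
    (fun x hx => h2 x hx) (left_mem_Icc.2 hR) hs
  rw [hp2, sub_self, sub_zero, sub_zero, Real.norm_eq_abs, Real.norm_eq_abs,
    abs_of_nonneg hs.1] at h3
  exact h3.trans (mul_le_mul_of_nonneg_left hs.2 hε.le)

variable [MeasurableSpace M] [BorelSpace M] {μ : Measure M} [IsFiniteMeasure μ]

/-- the Poincaré inequality with constant `4` -/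
def Poin (G : Geo2 M 𝒪 V) (μ : Measure M) : Prop :=
  ∀ F : 𝒪, ∫ q, G.ev q F ∂μ = 0 →
    4 * ∫ q, G.ev q F ^ 2 ∂μ ≤ ∫ q, G.ev q (G.g (G.grad F) (G.grad F)) ∂μ

/-- the Poincaré inequality for `γ₁(n) - γ₂(m)` with `γ₁`, `γ₂` of class `C¹` -/
theorem poincare_C1 [CompactSpace M] (hP : Poin G μ) {n m : 𝒪} {R : ℝ} (hR : 0 ≤ R)
    (hn : ∀ q, G.ev q n ∈ Icc 0 R) (hm : ∀ q, G.ev q m ∈ Icc 0 R)
    {γ₁ γ₁' γ₂ γ₂' : ℝ → ℝ}
    (h1 : ∀ s ∈ Icc 0 R, HasDerivWithinAt γ₁ (γ₁' s) (Icc 0 R) s)
    (h1' : ContinuousOn γ₁' (Icc 0 R))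
    (h2 : ∀ s ∈ Icc 0 R, HasDerivWithinAt γ₂ (γ₂' s) (Icc 0 R) s)
    (h2' : ContinuousOn γ₂' (Icc 0 R))
    (h0 : ∫ q, (γ₁ (G.ev q n) - γ₂ (G.ev q m)) ∂μ = 0) :
    4 * ∫ q, (γ₁ (G.ev q n) - γ₂ (G.ev q m)) ^ 2 ∂μ ≤
      ∫ q, (γ₁' (G.ev q n) ^ 2 * G.ev q (G.g (G.grad n) (G.grad n))
        - 2 * (γ₁' (G.ev q n) * γ₂' (G.ev q m)) * G.ev q (G.g (G.grad n) (G.grad m))
        + γ₂' (G.ev q m) ^ 2 * G.ev q (G.g (G.grad m) (G.grad m))) ∂μ := by
  have c1 : ContinuousOn γ₁ (Icc 0 R) := fun s hs => (h1 s hs).continuousWithinAt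
  have c2 : ContinuousOn γ₂ (Icc 0 R) := fun s hs => (h2 s hs).continuousWithinAt
  have k1 : Continuous fun q => γ₁ (G.ev q n) := c1.comp_continuous (G.ev_cont n) hn
  have k2 : Continuous fun q => γ₂ (G.ev q m) := c2.comp_continuous (G.ev_cont m) hm
  have k1' : Continuous fun q => γ₁' (G.ev q n) := h1'.comp_continuous (G.ev_cont n) hn
  have k2' : Continuous fun q => γ₂' (G.ev q m) := h2'.comp_continuous (G.ev_cont m) hm
  obtain ⟨B, hB0, hB⟩ : ∃ B, 0 ≤ B ∧ ∀ s ∈ Icc 0 R, |γ₁ s| ≤ B ∧ |γ₂ s| ≤ B ∧ |γ₁' s| ≤ B ∧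
      |γ₂' s| ≤ B := by
    obtain ⟨B1, b1⟩ := isCompact_Icc.exists_bound_of_continuousOn c1
    obtain ⟨B2, b2⟩ := isCompact_Icc.exists_bound_of_continuousOn c2
    obtain ⟨B3, b3⟩ := isCompact_Icc.exists_bound_of_continuousOn h1'
    obtain ⟨B4, b4⟩ := isCompact_Icc.exists_bound_of_continuousOn h2'
    refine ⟨max 0 (max (max B1 B2) (max B3 B4)), le_max_left _ _, fun s hs => ⟨?_, ?_, ?_, ?_⟩⟩
    · exact (b1 s hs).trans ((le_max_left _ _).trans ((le_max_left _ _).trans (le_max_right _ _)))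
    · exact (b2 s hs).trans ((le_max_right _ _).trans ((le_max_left _ _).trans (le_max_right _ _)))
    · exact (b3 s hs).trans ((le_max_left _ _).trans ((le_max_right _ _).trans (le_max_right _ _)))
    · exact (b4 s hs).trans ((le_max_right _ _).trans ((le_max_right _ _).trans (le_max_right _ _)))
  obtain ⟨S, hS0, hS⟩ : ∃ S, 0 ≤ S ∧ ∀ q, |G.ev q (G.g (G.grad n) (G.grad n))| ≤ S ∧
      |G.ev q (G.g (G.grad n) (G.grad m))| ≤ S ∧ |G.ev q (G.g (G.grad m) (G.grad m))| ≤ S := by
    obtain ⟨S1, b1⟩ := isCompact_univ.exists_bound_of_continuousOn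
      (G.ev_cont (G.g (G.grad n) (G.grad n))).continuousOn
    obtain ⟨S2, b2⟩ := isCompact_univ.exists_bound_of_continuousOn
      (G.ev_cont (G.g (G.grad n) (G.grad m))).continuousOn
    obtain ⟨S3, b3⟩ := isCompact_univ.exists_bound_of_continuousOn
      (G.ev_cont (G.g (G.grad m) (G.grad m))).continuousOn
    refine ⟨max 0 (max S1 (max S2 S3)), le_max_left _ _, fun q => ⟨?_, ?_, ?_⟩⟩
    · exact (b1 q (mem_univ q)).trans ((le_max_left _ _).trans (le_max_right _ _))
    · exact (b2 q (mem_univ q)).trans ((le_max_left _ _).trans ((le_max_right _ _).trans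
        (le_max_right _ _)))
    · exact (b3 q (mem_univ q)).trans ((le_max_right _ _).trans ((le_max_right _ _).trans
        (le_max_right _ _)))
  have hm0 : 0 ≤ μ.real univ := measureReal_nonneg
  -- the error estimate
  obtain ⟨K, hK0, hK⟩ : ∃ K : ℝ, 0 ≤ K ∧ ∀ ε : ℝ, 0 < ε → ε ≤ 1 →
      4 * ∫ q, (γ₁ (G.ev q n) - γ₂ (G.ev q m)) ^ 2 ∂μ ≤
      ∫ q, (γ₁' (G.ev q n) ^ 2 * G.ev q (G.g (G.grad n) (G.grad n))
        - 2 * (γ₁' (G.ev q n) * γ₂' (G.ev q m)) * G.ev q (G.g (G.grad n) (G.grad m))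
        + γ₂' (G.ev q m) ^ 2 * G.ev q (G.g (G.grad m) (G.grad m))) ∂μ + ε * K := by
    refine ⟨(4 * (4 * R * (4 * B + 4 * R)) + 4 * (2 * B + 1) * S) * μ.real univ, by positivity,
      fun ε hε hε1 => ?_⟩
    obtain ⟨p, hp, hp'⟩ := exists_poly_C1 hR h1 h1' hε
    obtain ⟨r, hr, hr'⟩ := exists_poly_C1 hR h2 h2' hε
    obtain ⟨f, hf⟩ : ∃ f : 𝒪, f = Polynomial.aeval n p - Polynomial.aeval m r := ⟨_, rfl⟩
    have hfe : ∀ q, G.ev q f = p.eval (G.ev q n) - r.eval (G.ev q m) := fun q => by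
      rw [hf, map_sub, Geom.ev_aeval, Geom.ev_aeval]
    have hfd : ∀ q, |G.ev q f - (γ₁ (G.ev q n) - γ₂ (G.ev q m))| ≤ 2 * (ε * R) := fun q => by
      have e1 := abs_le.1 (hp _ (hn q))
      have e2 := abs_le.1 (hr _ (hm q))
      rw [hfe, abs_le]
      constructor <;> linarith [e1.1, e1.2, e2.1, e2.2]
    rcases hm0.eq_or_lt with hz | hpos
    · have : μ = 0 := by
        rw [← Measure.measure_univ_eq_zero]
        exact (measureReal_eq_zero_iff (measure_ne_top μ univ)).1 hz.symm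
      rw [this]; simp
    obtain ⟨c, hc⟩ : ∃ c, c = II G μ f / μ.real univ := ⟨_, rfl⟩
    have hcb : |c| ≤ 2 * (ε * R) := by
      have e1 : II G μ f = ∫ q, (G.ev q f - (γ₁ (G.ev q n) - γ₂ (G.ev q m))) ∂μ := by
        have i2 : Integrable (fun q => γ₁ (G.ev q n) - γ₂ (G.ev q m)) μ :=
          (k1.sub k2).integrable_of_hasCompactSupport (HasCompactSupport.of_compactSpace _)
        rw [integral_sub (integrable_ev f) i2, h0, sub_zero]
        rfl
      have e2 := norm_integral_le_of_norm_le_const (μ := μ)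
        (f := fun q => G.ev q f - (γ₁ (G.ev q n) - γ₂ (G.ev q m))) (C := 2 * (ε * R))
        (Eventually.of_forall hfd)
      rw [← e1, Real.norm_eq_abs] at e2
      rw [hc, abs_div, abs_of_pos hpos, div_le_iff₀ hpos]
      exact e2
    obtain ⟨F, hF⟩ : ∃ F : 𝒪, F = f - algebraMap ℝ 𝒪 c := ⟨_, rfl⟩
    have hFe : ∀ q, G.ev q F = G.ev q f - c := fun q => by
      rw [hF, map_sub, AlgHom.commutes]; rfl
    have hFm : ∫ q, G.ev q F ∂μ = 0 := by
      simp only [hFe]
      rw [integral_sub (integrable_ev f) (integrable_const c), integral_const, smul_eq_mul, hc]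
      have : ∫ q, G.ev q f ∂μ = II G μ f := rfl
      rw [this]
      field_simp
      ring
    have hFd : ∀ q, |G.ev q F - (γ₁ (G.ev q n) - γ₂ (G.ev q m))| ≤ 4 * R * ε := fun q => by
      have e1 := abs_le.1 (hfd q)
      have e2 := abs_le.1 hcb
      rw [hFe, abs_le]
      constructor <;> linarith [e1.1, e1.2, e2.1, e2.2]
    have hmain := hP F hFm
    -- left hand side
    have hL : ∀ q, (γ₁ (G.ev q n) - γ₂ (G.ev q m)) ^ 2 ≤
        G.ev q F ^ 2 + 4 * R * ε * (4 * B + 4 * R) := by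
      intro q
      obtain ⟨b1, -, -, -⟩ := hB _ (hn q)
      obtain ⟨-, b2, -, -⟩ := hB _ (hm q)
      have e1 := hFd q
      generalize γ₁ (G.ev q n) = x at *
      generalize γ₂ (G.ev q m) = y at *
      generalize G.ev q F = z at *
      have e2 : |x - y| ≤ 2 * B := by
        rw [abs_le] at b1 b2 ⊢
        constructor <;> linarith [b1.1, b1.2, b2.1, b2.2]
      have e3 : (x - y) ^ 2 - z ^ 2 = ((x - y) - z) * (2 * (x - y) + (z - (x - y))) := by ring
      have e4 : |((x - y) - z) * (2 * (x - y) + (z - (x - y)))| ≤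
          4 * R * ε * (4 * B + 4 * R) := by
        rw [abs_mul, abs_sub_comm]
        have e5 : |2 * (x - y) + (z - (x - y))| ≤ 4 * B + 4 * R := by
          have e6 := abs_add_le (2 * (x - y)) (z - (x - y))
          rw [abs_mul, abs_of_pos (by norm_num : (0 : ℝ) < 2)] at e6
          have e7 : 4 * R * ε ≤ 4 * R := by nlinarith
          linarith
        exact mul_le_mul e1 e5 (abs_nonneg _) (by positivity)
      have := (le_abs_self _).trans e4
      linarith
    have i3 : Integrable (fun q => (γ₁ (G.ev q n) - γ₂ (G.ev q m)) ^ 2) μ :=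
      ((k1.sub k2).pow 2).integrable_of_hasCompactSupport (HasCompactSupport.of_compactSpace _)
    have i4 : Integrable (fun q => G.ev q F ^ 2) μ :=
      ((G.ev_cont F).pow 2).integrable_of_hasCompactSupport (HasCompactSupport.of_compactSpace _)
    have hL' := integral_mono i3 (i4.add (integrable_const _)) hL
    simp only [Pi.add_apply] at hL'
    rw [integral_add i4 (integrable_const _), integral_const, smul_eq_mul] at hL'
    -- right hand side
    have hD : ∀ X : V, G.D X F = Polynomial.aeval n (Polynomial.derivative p) * G.D X n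
        - Polynomial.aeval m (Polynomial.derivative r) * G.D X m := fun X => by
      rw [hF, D_sub, D_alg, sub_zero, hf, D_sub, Geom.D_aeval, Geom.D_aeval]
    have hg : ∀ q, G.ev q (G.g (G.grad F) (G.grad F)) =
        (Polynomial.derivative p).eval (G.ev q n) ^ 2 * G.ev q (G.g (G.grad n) (G.grad n))
        - 2 * ((Polynomial.derivative p).eval (G.ev q n) * (Polynomial.derivative r).eval (G.ev q m))
          * G.ev q (G.g (G.grad n) (G.grad m))
        + (Polynomial.derivative r).eval (G.ev q m) ^ 2 * G.ev q (G.g (G.grad m) (G.grad m)) := by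
      intro q
      have a1 : ∀ h : 𝒪, G.g (G.grad F) (G.grad h) =
          Polynomial.aeval n (Polynomial.derivative p) * G.g (G.grad n) (G.grad h)
          - Polynomial.aeval m (Polynomial.derivative r) * G.g (G.grad m) (G.grad h) := fun h => by
        rw [G.grad_spec, hD, ← G.grad_spec, ← G.grad_spec]
      have a2 : G.g (G.grad F) (G.grad F) =
          Polynomial.aeval n (Polynomial.derivative p) * G.g (G.grad F) (G.grad n)
          - Polynomial.aeval m (Polynomial.derivative r) * G.g (G.grad F) (G.grad m) := by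
        rw [a1 F, G.g_symm (G.grad n), G.g_symm (G.grad m)]
      rw [a2, a1, a1, G.g_symm (G.grad m) (G.grad n)]
      simp only [map_sub, map_mul, Geom.ev_aeval]
      ring
    have hR' : ∀ q, G.ev q (G.g (G.grad F) (G.grad F)) ≤
        (γ₁' (G.ev q n) ^ 2 * G.ev q (G.g (G.grad n) (G.grad n))
        - 2 * (γ₁' (G.ev q n) * γ₂' (G.ev q m)) * G.ev q (G.g (G.grad n) (G.grad m))
        + γ₂' (G.ev q m) ^ 2 * G.ev q (G.g (G.grad m) (G.grad m))) + ε * (4 * (2 * B + 1) * S) := by
      intro q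
      rw [hg]
      obtain ⟨-, -, b1, -⟩ := hB _ (hn q)
      obtain ⟨-, -, -, b2⟩ := hB _ (hm q)
      obtain ⟨s1, s2, s3⟩ := hS q
      have e1 := hp' _ (hn q)
      have e2 := hr' _ (hm q)
      generalize γ₁' (G.ev q n) = x at *
      generalize γ₂' (G.ev q m) = y at *
      generalize (Polynomial.derivative p).eval (G.ev q n) = u at *
      generalize (Polynomial.derivative r).eval (G.ev q m) = v at *
      generalize G.ev q (G.g (G.grad n) (G.grad n)) = a at *
      generalize G.ev q (G.g (G.grad n) (G.grad m)) = b at *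
      generalize G.ev q (G.g (G.grad m) (G.grad m)) = c' at *
      have t1 : |u ^ 2 - x ^ 2| ≤ ε * (2 * B + 1) := by
        rw [show u ^ 2 - x ^ 2 = (u - x) * (2 * x + (u - x)) by ring, abs_mul]
        have e6 := abs_add_le (2 * x) (u - x)
        rw [abs_mul, abs_of_pos (by norm_num : (0 : ℝ) < 2)] at e6
        exact mul_le_mul e1 (by linarith) (abs_nonneg _) hε.le
      have t2 : |v ^ 2 - y ^ 2| ≤ ε * (2 * B + 1) := by
        rw [show v ^ 2 - y ^ 2 = (v - y) * (2 * y + (v - y)) by ring, abs_mul]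
        have e6 := abs_add_le (2 * y) (v - y)
        rw [abs_mul, abs_of_pos (by norm_num : (0 : ℝ) < 2)] at e6
        exact mul_le_mul e2 (by linarith) (abs_nonneg _) hε.le
      have t3 : |x * y - u * v| ≤ ε * (2 * B + 1) := by
        rw [show x * y - u * v = (x - u) * v + x * (y - v) by ring]
        have e6 := abs_add_le ((x - u) * v) (x * (y - v))
        rw [abs_mul, abs_mul, abs_sub_comm x u, abs_sub_comm y v] at e6
        have e7 : |v| ≤ B + 1 := by
          have := abs_add_le y (v - y)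
          rw [add_sub_cancel] at this
          linarith
        have e8 : |u - x| * |v| ≤ ε * (B + 1) := mul_le_mul e1 e7 (abs_nonneg _) hε.le
        have e9 : |x| * |v - y| ≤ B * ε := mul_le_mul b1 e2 (abs_nonneg _) hB0
        linarith
      have r1 : (u ^ 2 - x ^ 2) * a ≤ ε * (2 * B + 1) * S := by
        have := mul_le_mul t1 s1 (abs_nonneg _) (by positivity)
        rw [← abs_mul] at this
        exact (le_abs_self _).trans this
      have r2 : (v ^ 2 - y ^ 2) * c' ≤ ε * (2 * B + 1) * S := by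
        have := mul_le_mul t2 s3 (abs_nonneg _) (by positivity)
        rw [← abs_mul] at this
        exact (le_abs_self _).trans this
      have r3 : (x * y - u * v) * b ≤ ε * (2 * B + 1) * S := by
        have := mul_le_mul t3 s2 (abs_nonneg _) (by positivity)
        rw [← abs_mul] at this
        exact (le_abs_self _).trans this
      nlinarith [r1, r2, r3]
    have kΨ : Continuous fun q => (γ₁' (G.ev q n) ^ 2 * G.ev q (G.g (G.grad n) (G.grad n))
        - 2 * (γ₁' (G.ev q n) * γ₂' (G.ev q m)) * G.ev q (G.g (G.grad n) (G.grad m))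
        + γ₂' (G.ev q m) ^ 2 * G.ev q (G.g (G.grad m) (G.grad m))) :=
      (((k1'.pow 2).mul (G.ev_cont _)).sub ((continuous_const.mul (k1'.mul k2')).mul
        (G.ev_cont _))).add ((k2'.pow 2).mul (G.ev_cont _))
    have i5 := kΨ.integrable_of_hasCompactSupport (μ := μ) (HasCompactSupport.of_compactSpace _)
    have hR'' := integral_mono (μ := μ) (integrable_ev (G := G) (G.g (G.grad F) (G.grad F)))
      (i5.add (integrable_const (ε * (4 * (2 * B + 1) * S)))) hR'
    simp only [Pi.add_apply] at hR''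
    rw [integral_add i5 (integrable_const _), integral_const, smul_eq_mul] at hR''
    nlinarith [hmain, hL', hR'']
  refine le_of_forall_pos_le_add fun ε hε => ?_
  have h1 := hK (min 1 (ε / (K + 1))) (by positivity) (min_le_left _ _)
  refine h1.trans (add_le_add le_rfl ?_)
  calc min 1 (ε / (K + 1)) * K ≤ ε / (K + 1) * K := mul_le_mul_of_nonneg_right (min_le_right _ _) hK0
    _ ≤ ε := by
      rw [div_mul_eq_mul_div, div_le_iff₀ (by positivity)]
      nlinarith

end Vale.Agent.P211.H958
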