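import Vale.Agent.P211.Bdl.S3
import Vale.Agent.P211.H958.Poin0

set_option linter.all false

/-! P211, block L-POIN: the oscillation of a function on a closed connected Riemannian manifold is
bounded by its gradient. -/

namespace Vale.Agent.P211.H958

open scoped Manifold ContDiff Topology
open Bundle Filter VectorField MeasureTheory Set
open Vale.Agent.P211 Vale.Agent.P211.S4

noncomputable section

variable {E : Type*} [NormedAddCommGroup E] [NormedSpace ℝ E] [FiniteDimensional ℝ E]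
  {M : Type*} [TopologicalSpace M] [ChartedSpace E M] [IsManifold 𝓘(ℝ, E) ∞ M] [T2Space M]
  [RiemannianBundle (fun x : M => TangentSpace 𝓘(ℝ, E) x)]
  [IsContMDiffRiemannianBundle 𝓘(ℝ, E) ∞ E (fun x : M => TangentSpace 𝓘(ℝ, E) x)]

/-- functions with gradient bounded by `S` -/
def GB (f : SF E M) (S : ℝ) : Prop :=
  ∀ (z : M) (v : TangentSpace 𝓘(ℝ, E) z), |mvfderiv 𝓘(ℝ, E) f z v| ≤ S * Real.sqrt (inner ℝ v v)

theorem gb_of {f : SF E M} {N : VF E M} (hN : ∀ X, gVF N X = DVF X f) {S : ℝ} (hS : 0 ≤ S)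
    (h : ∀ q, gVF N N q ≤ S ^ 2) : GB f S := by
  intro z v
  obtain ⟨X, hX⟩ := exists_ext (E := E) z v
  have h1 : mvfderiv 𝓘(ℝ, E) f z v = inner ℝ (N z) v := by
    have := congrArg (fun k : SF E M => k z) (hN X)
    simp only [gVF_apply, DVF_apply, hX] at this
    exact this.symm
  rw [h1]
  have h2 : |inner ℝ (N z) v| ≤ ‖N z‖ * ‖v‖ := abs_real_inner_le_norm _ _
  have h3 : ‖N z‖ ≤ S := by
    have := h z
    rw [gVF_apply, real_inner_self_eq_norm_sq] at this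
    exact abs_le_of_sq_le_sq' this hS |>.2
  have h4 : Real.sqrt (inner ℝ v v) = ‖v‖ := by
    rw [real_inner_self_eq_norm_sq, Real.sqrt_sq (norm_nonneg _)]
  rw [h4]
  exact h2.trans (mul_le_mul_of_nonneg_right h3 (norm_nonneg _))

omit [FiniteDimensional ℝ E] [T2Space M] in
theorem cont_inst : IsContinuousRiemannianBundle E (fun x : M => TangentSpace 𝓘(ℝ, E) x) := by
  obtain ⟨g, g_smooth, hg⟩ := IsContMDiffRiemannianBundle.exists_contMDiff (IB := 𝓘(ℝ, E))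
    (n := ∞) (F := E) (E := fun x : M => TangentSpace 𝓘(ℝ, E) x)
  exact ⟨⟨g, g_smooth.continuous, hg⟩⟩

section chart

attribute [local instance] normedAddCommGroupTangentSpaceVectorSpace
attribute [local instance] normedSpaceTangentSpaceVectorSpace

set_option backward.isDefEq.respectTransparency false in
theorem symm_bound (p : M) : ∃ C : ℝ, 0 < C ∧ ∀ᶠ y in 𝓝 (extChartAt 𝓘(ℝ, E) p p),
    ∀ v : E, Real.sqrt (inner ℝ
      (mfderiv 𝓘(ℝ, E) 𝓘(ℝ, E) (extChartAt 𝓘(ℝ, E) p).symm y v)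
      (mfderiv 𝓘(ℝ, E) 𝓘(ℝ, E) (extChartAt 𝓘(ℝ, E) p).symm y v)) ≤ C * ‖v‖ := by
  have hman : IsManifold 𝓘(ℝ, E) 1 M := IsManifold.of_le (n := ∞) (by norm_cast)
  have hcont : IsContinuousRiemannianBundle E (fun x : M => TangentSpace 𝓘(ℝ, E) x) := cont_inst
  obtain ⟨C, hC0, hC⟩ := eventually_norm_mfderivWithin_symm_extChartAt_lt 𝓘(ℝ, E) p
  refine ⟨C, hC0, ?_⟩
  simp only [modelWithCornersSelf_coe, range_id, nhdsWithin_univ, mfderivWithin_univ] at hC
  filter_upwards [hC] with y hy v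
  have h1 := (mfderiv 𝓘(ℝ, E) 𝓘(ℝ, E) (extChartAt 𝓘(ℝ, E) p).symm y).le_opNorm v
  rw [real_inner_self_eq_norm_sq, Real.sqrt_sq (norm_nonneg _)]
  exact h1.trans (mul_le_mul_of_nonneg_right hy.le (norm_nonneg _))

end chart

theorem local_lip (p : M) : ∃ C, 0 ≤ C ∧ ∀ᶠ q in 𝓝 p, ∀ (f : SF E M) (S : ℝ), 0 ≤ S → GB f S →
    |f q - f p| ≤ C * S := by
  obtain ⟨C, hC0, hC⟩ := symm_bound (E := E) p
  have ht : (extChartAt 𝓘(ℝ, E) p).target ∈ 𝓝 (extChartAt 𝓘(ℝ, E) p p) :=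
    extChartAt_target_mem_nhds p
  obtain ⟨r, hr, hball⟩ := Metric.mem_nhds_iff.mp (inter_mem ht hC)
  refine ⟨C * r, by positivity, ?_⟩
  have h1 : (extChartAt 𝓘(ℝ, E) p).source ∈ 𝓝 p := extChartAt_source_mem_nhds p
  have h2 : ∀ᶠ q in 𝓝 p, extChartAt 𝓘(ℝ, E) p q ∈ Metric.ball (extChartAt 𝓘(ℝ, E) p p) r :=
    (continuousAt_extChartAt p).eventually (Metric.ball_mem_nhds _ hr)
  filter_upwards [h1, h2] with q hq1 hq2 f S hS hf
  have hder : ∀ y ∈ Metric.ball (extChartAt 𝓘(ℝ, E) p p) r,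
      HasFDerivWithinAt (fun y => f ((extChartAt 𝓘(ℝ, E) p).symm y))
        ((mvfderiv 𝓘(ℝ, E) f ((extChartAt 𝓘(ℝ, E) p).symm y)).comp
          (mfderiv 𝓘(ℝ, E) 𝓘(ℝ, E) (extChartAt 𝓘(ℝ, E) p).symm y))
        (Metric.ball (extChartAt 𝓘(ℝ, E) p p) r) y := by
    intro y hy
    have hy1 := (hball hy).1
    have a1 : MDifferentiableAt 𝓘(ℝ, E) 𝓘(ℝ, E) (extChartAt 𝓘(ℝ, E) p).symm y :=
      ((contMDiffOn_extChartAt_symm (I := 𝓘(ℝ, E)) (n := ∞) p).contMDiffAt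
        ((isOpen_extChartAt_target p).mem_nhds hy1)).mdifferentiableAt (by simp)
    have a2 := (f.mdiff ((extChartAt 𝓘(ℝ, E) p).symm y)).hasMFDerivAt
    have a3 := a2.comp y a1.hasMFDerivAt
    exact a3.hasFDerivAt.hasFDerivWithinAt
  have hbd : ∀ y ∈ Metric.ball (extChartAt 𝓘(ℝ, E) p p) r,
      ‖((mvfderiv 𝓘(ℝ, E) f ((extChartAt 𝓘(ℝ, E) p).symm y)).comp
          (mfderiv 𝓘(ℝ, E) 𝓘(ℝ, E) (extChartAt 𝓘(ℝ, E) p).symm y) : E →L[ℝ] ℝ)‖ ≤ C * S := by
    intro y hy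
    have hy2 := (hball hy).2
    refine ContinuousLinearMap.opNorm_le_bound _ (by positivity) fun v => ?_
    have b1 := hf ((extChartAt 𝓘(ℝ, E) p).symm y)
      (mfderiv 𝓘(ℝ, E) 𝓘(ℝ, E) (extChartAt 𝓘(ℝ, E) p).symm y v)
    have b2 := mul_le_mul_of_nonneg_left (hy2 v) hS
    calc _ ≤ _ := b1
      _ ≤ _ := b2
      _ = C * S * ‖v‖ := by ring
  have hmain := (convex_ball (extChartAt 𝓘(ℝ, E) p p) r).norm_image_sub_le_of_norm_hasFDerivWithin_le
    hder hbd (Metric.mem_ball_self hr) hq2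
  rw [(extChartAt 𝓘(ℝ, E) p).left_inv hq1, extChartAt_to_inv, Real.norm_eq_abs] at hmain
  refine hmain.trans ?_
  rw [Metric.mem_ball, dist_eq_norm] at hq2
  calc C * S * ‖extChartAt 𝓘(ℝ, E) p q - extChartAt 𝓘(ℝ, E) p p‖ ≤ C * S * r :=
        mul_le_mul_of_nonneg_left hq2.le (by positivity)
    _ = C * r * S := by ring

/-- the oscillation is bounded by the gradient -/
theorem osc_GB [CompactSpace M] [PreconnectedSpace M] : ∃ C : ℝ, 0 ≤ C ∧
    ∀ (f : SF E M) (S : ℝ), 0 ≤ S → GB f S → ∀ x y, |f x - f y| ≤ C * S := by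
  rcases isEmpty_or_nonempty M with hM | ⟨⟨x₀⟩⟩
  · exact ⟨0, le_rfl, fun f S _ _ x => (IsEmpty.false x).elim⟩
  -- the points which are controlled by `x₀`
  let A : Set M := {x | ∃ C, 0 ≤ C ∧ ∀ (f : SF E M) (S : ℝ), 0 ≤ S → GB f S →
    |f x - f x₀| ≤ C * S}
  have hnb : ∀ p : M, ∀ᶠ q in 𝓝 p, (q ∈ A ↔ p ∈ A) := by
    intro p
    obtain ⟨C, hC0, hC⟩ := local_lip (E := E) p
    filter_upwards [hC] with q hq
    constructor
    · rintro ⟨C', hC', h⟩
      refine ⟨C + C', by positivity, fun f S hS hf => ?_⟩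
      have h1 := hq f S hS hf
      have h2 := h f S hS hf
      have h3 : |f p - f x₀| ≤ |f q - f p| + |f q - f x₀| := by
        rw [abs_sub_comm (f q) (f p)]
        exact abs_sub_le _ _ _
      linarith
    · rintro ⟨C', hC', h⟩
      refine ⟨C + C', by positivity, fun f S hS hf => ?_⟩
      have h1 := hq f S hS hf
      have h2 := h f S hS hf
      have h3 : |f q - f x₀| ≤ |f q - f p| + |f p - f x₀| := abs_sub_le _ _ _
      linarith
  have hopen : IsOpen A := isOpen_iff_mem_nhds.2 fun p hp => by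
    filter_upwards [hnb p] with q hq using hq.2 hp
  have hclosed : IsClosed A := by
    rw [← isOpen_compl_iff, isOpen_iff_mem_nhds]
    intro p hp
    filter_upwards [hnb p] with q hq using fun h => hp (hq.1 h)
  have huniv : A = univ := IsClopen.eq_univ ⟨hclosed, hopen⟩
    ⟨x₀, 0, le_rfl, fun f S hS _ => by simp⟩
  choose C hC0 hC using local_lip (E := E) (M := M)
  obtain ⟨t, -, ht⟩ := isCompact_univ.elim_nhds_subcover (fun p => {q | ∀ (f : SF E M) (S : ℝ),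
    0 ≤ S → GB f S → |f q - f p| ≤ C p * S}) (fun p _ => hC p)
  have hA : ∀ p : M, ∃ C, 0 ≤ C ∧ ∀ (f : SF E M) (S : ℝ), 0 ≤ S → GB f S →
    |f p - f x₀| ≤ C * S := fun p => by
      have : p ∈ A := by rw [huniv]; trivial
      exact this
  choose K hK0 hK using hA
  have hsum : ∀ x, ∀ (f : SF E M) (S : ℝ), 0 ≤ S → GB f S →
      |f x - f x₀| ≤ (∑ p ∈ t, (C p + K p)) * S := by
    intro x f S hS hf
    obtain ⟨p, hp, hx⟩ := mem_iUnion₂.1 (ht (mem_univ x))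
    have h1 := hx f S hS hf
    have h2 := hK p f S hS hf
    have h3 : |f x - f x₀| ≤ |f x - f p| + |f p - f x₀| := abs_sub_le _ _ _
    have h4 : C p + K p ≤ ∑ p ∈ t, (C p + K p) :=
      Finset.single_le_sum (f := fun p => C p + K p) (fun q _ => add_nonneg (hC0 q) (hK0 q)) hp
    have h5 := mul_le_mul_of_nonneg_right h4 hS
    linarith
  refine ⟨2 * ∑ p ∈ t, (C p + K p), mul_nonneg (by norm_num)
    (Finset.sum_nonneg fun q _ => add_nonneg (hC0 q) (hK0 q)), fun f S hS hf x y => ?_⟩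
  have h1 := hsum x f S hS hf
  have h2 := hsum y f S hS hf
  have h3 : |f x - f y| ≤ |f x - f x₀| + |f y - f x₀| := by
    rw [abs_sub_comm (f y) (f x₀)]
    exact abs_sub_le _ _ _
  linarith

/-- the oscillation bound in the language of `Geo2` -/
theorem osc_geo2 [CompactSpace M] [PreconnectedSpace M]
    {cov : CovariantDerivative 𝓘(ℝ, E) E (TangentSpace 𝓘(ℝ, E) : M → Type _)}
    (hcov : IsLC cov) (hE : Module.finrank ℝ E = 4) :
    ∃ C : ℝ, 0 ≤ C ∧ ∀ (f : SF E M) (S : ℝ), 0 ≤ S →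
      (∀ q, (geo2Of hcov hE).ev q ((geo2Of hcov hE).g ((geo2Of hcov hE).grad f)
        ((geo2Of hcov hE).grad f)) ≤ S ^ 2) →
      ∀ x y, |(geo2Of hcov hE).ev x f - (geo2Of hcov hE).ev y f| ≤ C * S := by
  obtain ⟨C, hC0, hC⟩ := osc_GB (E := E) (M := M)
  refine ⟨C, hC0, fun f S hS h x y => ?_⟩
  have hN : ∀ X, gVF ((geo2Of hcov hE).grad f) X = DVF X f := (geo2Of hcov hE).grad_spec f
  exact hC f S hS (gb_of hN hS h) x y

end

end Vale.Agent.P211.H958
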