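import Vale.Agent.P211.Bdl.S5
import Vale.Agent.P211.H844.PE
import Vale.Agent.P211.H958.PoinC1

/-! P211: on a closed connected manifold with a smooth Riemannian metric (only a topological
space, no distance given) there is a metric space structure with the same topology, and the
Riemannian volume: a finite Borel measure, positive on open sets, with the divergence theorem. -/

set_option maxSynthPendingDepth 3
set_option linter.all false

open scoped Manifold ContDiff Topology
open Bundle Filter Set MeasureTheory Manifold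

noncomputable section

namespace Vale.Agent.P211.H958

open Vale.Agent.P211 Vale.Agent.P211.S4 Vale.Agent.P234 Vale.Agent.P231

theorem edist_ne_top_of_connected {α : Type*} [PseudoEMetricSpace α] [PreconnectedSpace α]
    (x y : α) : edist x y ≠ ⊤ := by
  have h3 : Metric.eball x ⊤ = univ :=
    IsClopen.eq_univ ⟨Metric.isClosed_eball_top, Metric.isOpen_eball⟩
      ⟨x, Metric.mem_eball_self ENNReal.zero_lt_top⟩
  have h4 : y ∈ Metric.eball x ⊤ := by rw [h3]; trivial
  rw [Metric.mem_eball'] at h4
  exact ne_of_lt h4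

variable {E : Type} [NormedAddCommGroup E] [NormedSpace ℝ E] [FiniteDimensional ℝ E]
  {M : Type} [TopologicalSpace M] [ChartedSpace E M] [IsManifold 𝓘(ℝ, E) ∞ M] [T2Space M]
  [CompactSpace M] [ConnectedSpace M]
  [RiemannianBundle (fun x : M => TangentSpace 𝓘(ℝ, E) x)]
  [IsContMDiffRiemannianBundle 𝓘(ℝ, E) ∞ E (fun x : M => TangentSpace 𝓘(ℝ, E) x)]

theorem meas_cont : IsContinuousRiemannianBundle E (fun x : M => TangentSpace 𝓘(ℝ, E) x) := by
  obtain ⟨g, hg, hg2⟩ :=
    (inferInstance : IsContMDiffRiemannianBundle 𝓘(ℝ, E) ∞ E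
      (fun x : M => TangentSpace 𝓘(ℝ, E) x)).exists_contMDiff
  exact ⟨g, hg.continuous, hg2⟩

/-- the divergence theorem on a Riemannian manifold without given distance -/
theorem exists_volume {cov : CovariantDerivative 𝓘(ℝ, E) E (TangentSpace 𝓘(ℝ, E) : M → Type _)}
    (hcov : IsLC cov) (hE : Module.finrank ℝ E = 4) [mM : MeasurableSpace M] [bM : BorelSpace M] :
    ∃ μ : Measure M, IsFiniteMeasure μ ∧ μ.IsOpenPosMeasure ∧ DivThm (geo2Of hcov hE) μ := by
  haveI I3 : IsContinuousRiemannianBundle E (fun x : M => TangentSpace 𝓘(ℝ, E) x) := meas_cont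
  haveI h1M : IsManifold 𝓘(ℝ, E) 1 M := IsManifold.of_le (n := ∞) (by simp)
  let E1 : EMetricSpace M := EMetricSpace.ofRiemannianMetric 𝓘(ℝ, E) M
  let E2 : MetricSpace M := EMetricSpace.toMetricSpace (fun x y => edist_ne_top_of_connected x y)
  have R1 : IsRiemannianManifold 𝓘(ℝ, E) M := ⟨fun x y => rfl⟩
  obtain ⟨e, he, -⟩ := main_unconditional (E := E) (M := M)
  have F : Facts e := facts_of_isExp he
  refine ⟨riemVol 4 M, V11_finite F hE, ⟨fun U hU hne => ?_⟩, fun X => div_global hcov hE F X⟩
  obtain ⟨p, hp⟩ := hne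
  intro h0
  obtain ⟨r0, hr0, hball⟩ := Metric.isOpen_iff.1 hU p hp
  have h1 := vol_ball F hE p
  have h2 : Tendsto (fun r : ℝ => (riemVol 4 M).real (Metric.ball p r) / r ^ 4) (𝓝[>] 0)
      (𝓝 0) := by
    refine tendsto_const_nhds.congr' ?_
    filter_upwards [Ioo_mem_nhdsGT hr0] with r hr
    have : (riemVol 4 M) (Metric.ball p r) = 0 :=
      measure_mono_null ((Metric.ball_subset_ball hr.2.le).trans hball) h0
    simp [Measure.real, this]
  have h3 := tendsto_nhds_unique h1 h2
  have : 0 < Real.pi ^ 2 / 2 := by positivity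
  linarith

/-- the Riemannian volume with the divergence theorem and the Poincaré inequality (`Ric = 3`). -/
theorem exists_measure {cov : CovariantDerivative 𝓘(ℝ, E) E (TangentSpace 𝓘(ℝ, E) : M → Type _)}
    (hcov : IsLC cov) (hE : Module.finrank ℝ E = 4) (hEin : (geo2Of hcov hE).Einstein 3)
    [mM : MeasurableSpace M] [bM : BorelSpace M] :
    ∃ μ : Measure M, IsFiniteMeasure μ ∧ μ.IsOpenPosMeasure ∧ DivThm (geo2Of hcov hE) μ ∧
      Poin (geo2Of hcov hE) μ := by
  obtain ⟨μ, h1, h2, h3⟩ := exists_volume hcov hE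
  refine ⟨μ, h1, h2, h3, fun F hF => ?_⟩
  have h := S4.poincare hcov hE hEin h3 F hF
  simpa only [map_mul, pow_two] using h

end Vale.Agent.P211.H958
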